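import Vale.Agent.P286.Gen.BunLem

/-!
# The categories of test objects of `Bun_G(ℙ¹)` and `BG`
-/

namespace Vale.Agent.P286.Gen.H96

open CategoryTheory

noncomputable section

variable {N : ℕ} {Γ Z : Gps N} {m : ℕ} {X Y V W : BunObj Γ Z m}

/-- The unit. -/
def bunUnit (X : BunObj Γ Z m) : GrP Γ X.A.R := oneP Γ _

theorem bunGlue (X : BunObj Γ Z m) : Glue m (SmAlg.Hm.id X.A) X.g X.g (bunUnit X) (bunUnit X) :=
  Glue.id X.g

theorem bunGlueComp (φ : BunHom X Y) (ψ : BunHom Y W) :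
    Glue m (ψ.f.comp φ.f) X.g W.g (cmp ψ.f ψ.a φ.a) (cmp ψ.f ψ.b φ.b) := Glue.comp φ.glue ψ.glue

/-- The identity. -/
def bunId (X : BunObj Γ Z m) : BunHom X X := ⟨SmAlg.Hm.id X.A, bunUnit X, bunUnit X, bunGlue X⟩

/-- The composition. -/
def bunComp (φ : BunHom X Y) (ψ : BunHom Y W) : BunHom X W :=
  ⟨ψ.f.comp φ.f, cmp ψ.f ψ.a φ.a, cmp ψ.f ψ.b φ.b, bunGlueComp φ ψ⟩

theorem bunIdComp (φ : BunHom X Y) : bunComp (bunId X) φ = φ :=
  BunHom.ext rfl (cmp_one_right φ.f φ.a) (cmp_one_right φ.f φ.b)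

theorem bunCompId (φ : BunHom X Y) : bunComp φ (bunId Y) = φ :=
  BunHom.ext rfl (cmp_one_left φ.a) (cmp_one_left φ.b)

theorem bunAssoc (φ : BunHom X Y) (ψ : BunHom Y W) (χ : BunHom W V) :
    bunComp (bunComp φ ψ) χ = bunComp φ (bunComp ψ χ) :=
  BunHom.ext rfl (cmp_assoc ψ.f χ.f χ.a ψ.a φ.a) (cmp_assoc ψ.f χ.f χ.b ψ.b φ.b)

/-- The category of test objects of `Bun_G(ℙ¹)`. -/
def bunCat (Γ Z : Gps N) (m : ℕ) : Category.{0} (BunObj Γ Z m) where
  Hom := BunHom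
  id := bunId
  comp := bunComp
  id_comp := bunIdComp
  comp_id := bunCompId
  assoc := bunAssoc

/-- The unit `δ`. -/
def bunDelta (φ : BunHom X Y) : Y.A.R := delta m φ.f φ.a φ.b X.S Y.S

/-- The automorphisms defined by the elements of `Z`. -/
def bunCen (X : BunObj Γ Z m) : Set (BunHom X X) :=
  {φ | φ.f = SmAlg.Hm.id X.A ∧ ∃ ζ ∈ Z, IsCst ζ φ.a ∧ IsCst ζ φ.b}

/-- The stack `Bun_G(ℙ¹)`, `G = Γ'/Z`, with its canonical bundle `ω` and the twist `s`, given by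
its test objects. -/
def BunST (Γ Z : Gps N) (m : ℕ) (s : ℂ) : St.TSite where
  C := BunObj Γ Z m
  cat := bunCat Γ Z m
  A := BunObj.A
  f := BunHom.f
  dl := bunDelta
  cen := bunCen
  s := s

/-- The stack `Bun_G(ℙ¹)` for `G = Γ'/Z`, where `Γ'` is the Zariski closure of `Γ`, with its
canonical bundle `ω` and the twist `(h - c)/(2h)`. -/
def DBun (Γ Z : Gps N) (m h : ℕ) (c : ℂ) : St.TSite := BunST Γ Z m ((h - c) / (2 * h))

variable {X Y V W : BGObj Γ}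

/-- The identity. -/
def bgId (X : BGObj Γ) : BGHom X X := ⟨SmAlg.Hm.id X.A, gone Γ _⟩

/-- The composition. -/
def bgComp (φ : BGHom X Y) (ψ : BGHom Y W) : BGHom X W := ⟨ψ.f.comp φ.f, gcmp ψ.f ψ.h φ.h⟩

theorem bgIdComp (φ : BGHom X Y) : bgComp (bgId X) φ = φ :=
  BGHom.ext rfl ((congrArg (BGHom.h φ * ·) (gm_one _)).trans (mul_one _))

theorem bgCompId (φ : BGHom X Y) : bgComp φ (bgId Y) = φ := BGHom.ext rfl (one_mul _)

theorem bgAssoc (φ : BGHom X Y) (ψ : BGHom Y W) (χ : BGHom W V) :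
    bgComp (bgComp φ ψ) χ = bgComp φ (bgComp ψ χ) :=
  BGHom.ext rfl ((congrArg (BGHom.h χ * ·) (gm_mul _ _ _)).trans (mul_assoc _ _ _).symm)

/-- The category of test objects of `BG`. -/
def bgCat (Γ : Gps N) : Category.{0} (BGObj Γ) where
  Hom := BGHom
  id := bgId
  comp := bgComp
  id_comp := bgIdComp
  comp_id := bgCompId
  assoc := bgAssoc

/-- The classifying stack of `Γ'` (without twist), given by its test objects. -/
def BgST (Γ : Gps N) : St.TSite where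
  C := BGObj Γ
  cat := bgCat Γ
  A := BGObj.A
  f := BGHom.f
  dl _ := 1
  cen X := {bgId X}
  s := 0

end

end Vale.Agent.P286.Gen.H96
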