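import Vale.Agent.P286.St.TD

/-!
# DG functors between the DG categories of cartesian complexes
-/

namespace Vale.Agent.P286.H96

open CategoryTheory CochainComplex Vale.Agent.P286.St

noncomputable section

variable {T T' : TSite}

/-- The complex of `D(L^s)`-modules underlying a cartesian complex. -/
def cplx (K : CCx T) : CochainComplex (TD T) ℤ := K.obj

/-- The morphisms of degree `n` in the DG category of cartesian complexes. -/
def Mor (K L : CCx T) (n : ℤ) : Type 1 := HomComplex.Cochain (cplx K) (cplx L) n

variable {K L M : CCx T} {K' L' : CCx T'} {m n p : ℤ}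

/-- A closed morphism of degree `0`. -/
def clM (f : K ⟶ L) : Mor K L 0 := HomComplex.Cochain.ofHom f.hom

/-- The differential of morphisms. -/
def dM (m n : ℤ) (α : Mor K L m) : Mor K L n := HomComplex.δ m n α

/-- The composition of morphisms. -/
def compM (h : m + n = p) (α : Mor K L m) (β : Mor L M n) : Mor K M p :=
  HomComplex.Cochain.comp α β h

/-- The map `u` is `ℂ`-linear. -/
def IsLin (u : Mor K L n → Mor K' L' n) : Prop :=
  IsLinearMap (M := HomComplex.Cochain (cplx K) (cplx L) n)
    (M₂ := HomComplex.Cochain (cplx K') (cplx L') n) ℂ u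

/-- Functors between the categories of the closed morphisms of degree `0`. -/
def CFun (T T' : TSite) : Type 1 := CCx T ⥤ CCx T'

/-- The value at `K`. -/
def CFun.onO (Ψ : CFun T T') (K : CCx T) : CCx T' := CategoryTheory.Functor.obj Ψ K

/-- The value at `f`. -/
def CFun.onM (Ψ : CFun T T') (f : K ⟶ L) : Mor (Ψ.onO K) (Ψ.onO L) 0 :=
  clM (CategoryTheory.Functor.map Ψ f)

/-- The functor `Ψ` on closed morphisms of degree `0` is defined by a `ℂ`-linear DG functor between
the DG categories of cartesian complexes. -/
def IsDG (Ψ : CFun T T') : Prop :=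
  ∃ F : ∀ (K L : CCx T) (n : ℤ), Mor K L n → Mor (Ψ.onO K) (Ψ.onO L) n,
    (∀ K L f, F K L 0 (clM f) = Ψ.onM f) ∧ (∀ K L n, IsLin (F K L n)) ∧
    (∀ K L m n α, F K L n (dM m n α) = dM m n (F K L m α)) ∧
    ∀ K L M m n p (h : m + n = p) α β, F K M p (compM h α β) = compM h (F K L m α) (F L M n β)

/-- There is a DG functor between the DG categories of cartesian complexes which induces an
equivalence of the categories obtained by inverting the quasi-isomorphisms. -/
def DGStep (T T' : TSite) : Prop :=
  ∃ Ψ : CFun T T', IsDG Ψ ∧ (CategoryTheory.Functor.comp Ψ (Ho.Q T')).IsLocalization (CCx.qis T)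

/-- The DG categories of cartesian complexes (with the quasi-isomorphisms inverted) are equivalent:
they are connected by a zigzag of quasi-equivalences. -/
def DGEq (T T' : TSite) : Prop := Relation.EqvGen DGStep T T'

/-- The category `Ho T` is not zero: it has two different parallel morphisms. -/
def IsNz (T : TSite) : Prop := ¬Quiver.IsThin (Ho T)

end

end Vale.Agent.P286.H96
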