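import Vale.Agent.P286.Gen.Main
import Vale.Agent.P286.H353.DG
import Vale.Agent.P286.H96.BunD
import Vale.Agent.P286.H96.DGD

/-!
# Comparison with the library's definitions
-/

namespace Vale.Agent.P286.Gen.H96

variable {N : ℕ} (Γ Z : Gps N) (m : ℕ) (s : ℂ)

theorem BunST_eq : BunST Γ Z m s = BunG Γ Z m s := rfl

theorem BgST_eq : BgST Γ = BGT Γ := rfl

end Vale.Agent.P286.Gen.H96

namespace Vale.Agent.P286.H96

open CategoryTheory CochainComplex Vale.Agent.P286.St

variable {T T' : TSite}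

theorem isDG_fn (Φ : H353.DGFun T T') : IsDG (T := T) (T' := T') Φ.fn :=
  ⟨fun _ _ n α => Φ.map n α, fun _ _ f => (Φ.ofHom_hom (H353.hm f)).symm,
    fun _ _ n => (Φ.map n).isLinear, fun _ _ m n α => Φ.map_d m n α,
    fun _ _ _ _ _ _ h α β => Φ.map_comp h α β⟩

theorem dgStep_of_dgs (h : H353.DGS T T') : DGStep T T' := by
  obtain ⟨Φ, F, hF, ⟨i⟩⟩ := h
  refine ⟨Φ.fn, isDG_fn Φ, ?_⟩
  have hQ : (Ho.Q T).IsLocalization (CCx.qis T) :=
    Functor.q_isLocalization (CCx.qis T)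
  have := hF
  exact Functor.IsLocalization.of_equivalence_target (Ho.Q T) (CCx.qis T) (Φ.fn ⋙ Ho.Q T')
    F.asEquivalence i

theorem dgEq_of_dge (h : H353.DGE T T') : DGEq T T' := by
  induction h with
  | rel P Q h => exact Relation.EqvGen.rel _ _ (dgStep_of_dgs h)
  | refl P => exact Relation.EqvGen.refl _
  | symm P Q _ ih => exact Relation.EqvGen.symm _ _ ih
  | trans P Q R _ _ ih1 ih2 => exact Relation.EqvGen.trans _ _ _ ih1 ih2

end Vale.Agent.P286.H96
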