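import Vale.Agent.P286.H527.BrE
import Vale.Agent.P286.H96.DGD

/-!
# The homotopy category is not zero
-/

namespace Vale.Agent.P286.H96

open CategoryTheory Vale.Agent.P286.St

noncomputable section

variable {T : TSite}

/-- The differential. -/
def dA (K : Cx T) (X : T.C) (i j : ℤ) : K.S X i →+ K.S X j :=
  AddMonoidHom.mk' (K.d X i j)
    (TD.hm_add (M := K.tm i) (N := K.tm j) (HomologicalComplex.d K i j) X)

/-- The map of sections. -/
def hA {K L : Cx T} (u : K ⟶ L) (X : T.C) (i : ℤ) : K.S X i →+ L.S X i :=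
  AddMonoidHom.mk' (Cx.hm u X i)
    (TD.hm_add (M := K.tm i) (N := L.tm i) (HomologicalComplex.Hom.f u i) X)

theorem hA_d {K L : Cx T} (u : K ⟶ L) (X : T.C) (i j : ℤ) (x : K.S X i) :
    hA u X j (dA K X i j x) = dA L X i j (hA u X i x) := by
  have h : HomologicalComplex.Hom.f u i ≫ HomologicalComplex.d L i j =
      HomologicalComplex.d K i j ≫ HomologicalComplex.Hom.f u j := HomologicalComplex.Hom.comm u i j
  have h1 := congrArg (fun w => TD.hm (M := K.tm i) (N := L.tm j) w X x) h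
  exact h1.symm

/-- The cocycles. -/
def zA (K : Cx T) (X : T.C) (j k : ℤ) : AddSubgroup (K.S X j) := (dA K X j k).ker

/-- The cohomology. -/
def Hc (K : Cx T) (X : T.C) (i j k : ℤ) : Type :=
  zA K X j k ⧸ (dA K X i j).range.addSubgroupOf (zA K X j k)

/-- The map on cocycles. -/
def zMap {K L : Cx T} (u : K ⟶ L) (X : T.C) (j k : ℤ) : zA K X j k →+ zA L X j k :=
  ((hA u X j).comp (zA K X j k).subtype).codRestrict _ (fun x => by
    change dA L X j k (hA u X j x) = 0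
    rw [← hA_d, show dA K X j k x = 0 from x.2, map_zero])

/-- The map on cohomology. -/
def hMap {K L : Cx T} (u : K ⟶ L) (X : T.C) (i j k : ℤ) : Hc K X i j k → Hc L X i j k :=
  QuotientAddGroup.map _ _ (zMap u X j k) (by
    rintro x ⟨y, hy⟩
    exact ⟨hA u X i y, by rw [← hA_d, hy]; rfl⟩)

/-- The class of a cocycle. -/
def mkH (K : Cx T) (X : T.C) (i j k : ℤ) (x : zA K X j k) : Hc K X i j k :=
  QuotientAddGroup.mk x

theorem mkH_surj (K : Cx T) (X : T.C) (i j k : ℤ) (x : Hc K X i j k) :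
    ∃ y, mkH K X i j k y = x := Quotient.exists_rep x

theorem mkH_eq {K : Cx T} {X : T.C} {i j k : ℤ} {x y : zA K X j k} :
    mkH K X i j k x = mkH K X i j k y ↔ ∃ z, dA K X i j z = -x.1 + y.1 :=
  QuotientAddGroup.eq.trans Iff.rfl

theorem hMap_mk {K L : Cx T} (u : K ⟶ L) (X : T.C) (i j k : ℤ) (x : zA K X j k) :
    hMap u X i j k (mkH K X i j k x) = mkH L X i j k (zMap u X j k x) := rfl

theorem hMap_id (K : Cx T) (X : T.C) (i j k : ℤ) (x : Hc K X i j k) :
    hMap (𝟙 K) X i j k x = x := by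
  obtain ⟨y, rfl⟩ := mkH_surj K X i j k x
  rfl

theorem hMap_comp {K L M : Cx T} (u : K ⟶ L) (v : L ⟶ M) (X : T.C) (i j k : ℤ)
    (x : Hc K X i j k) : hMap (u ≫ v) X i j k x = hMap v X i j k (hMap u X i j k x) := by
  obtain ⟨y, rfl⟩ := mkH_surj K X i j k x
  rfl

theorem hMap_bij {K L : Cx T} (u : K ⟶ L) (X : T.C) (i j k : ℤ) (h : St.HIso (K.d X i j)
    (K.d X j k) (L.d X i j) (L.d X j k) (Cx.hm u X j)) : Function.Bijective (hMap u X i j k) := by
  constructor
  · intro x y hxy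
    obtain ⟨x, rfl⟩ := mkH_surj K X i j k x
    obtain ⟨y, rfl⟩ := mkH_surj K X i j k y
    rw [hMap_mk, hMap_mk, mkH_eq] at hxy
    obtain ⟨z, hz⟩ := hxy
    rw [mkH_eq]
    refine h.1 (-x.1 + y.1) ?_ ⟨z, hz.trans ?_⟩
    · change dA K X j k (-x.1 + y.1) = 0
      rw [map_add, map_neg, show dA K X j k x = 0 from x.2, show dA K X j k y = 0 from y.2,
        neg_zero, add_zero]
    · change -(hA u X j x.1) + hA u X j y.1 = hA u X j (-x.1 + y.1)
      rw [map_add, map_neg]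
  · intro y
    obtain ⟨y, rfl⟩ := mkH_surj L X i j k y
    obtain ⟨x, hx, z, hz⟩ := h.2 y.1 y.2
    refine ⟨mkH K X i j k ⟨x, hx⟩, ?_⟩
    rw [hMap_mk, mkH_eq]
    refine ⟨z, hz.trans ?_⟩
    change y.1 - hA u X j x = -(hA u X j x) + y.1
    abel

/-- The cohomology functor. -/
def HF (T : TSite) (X : T.C) (i j k : ℤ) : CCx T ⥤ Type where
  obj K := Hc ((CCx.incl T).obj K) X i j k
  map u := ↾(hMap ((CCx.incl T).map u) X i j k)
  map_id K := ConcreteCategory.hom_ext _ _ (hMap_id _ X i j k)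
  map_comp u v := ConcreteCategory.hom_ext _ _ (hMap_comp _ _ X i j k)

theorem inv_HF (T : TSite) (X : T.C) {i j k : ℤ} (h1 : i + 1 = j) (h2 : j + 1 = k) :
    (CCx.qis T).IsInvertedBy (HF T X i j k) := by
  intro K L u hu
  rw [isIso_iff_bijective]
  exact hMap_bij _ X i j k (hu X i j k h1 h2)

/-- The zero morphism. -/
def zr (K : Cx T) : K ⟶ K :=
  let K₁ : CochainComplex (TD T) ℤ := K
  (0 : K₁ ⟶ K₁)

theorem hA_zr (K : Cx T) (X : T.C) (i : ℤ) (x : K.S X i) : hA (zr K) X i x = 0 := rfl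

theorem isNz_of (h : ∃ K : Cx T, K.Cart ∧ ¬ K.Acyclic) : IsNz T := by
  obtain ⟨K, hK, hn⟩ := h
  intro ht
  apply hn
  intro X i j k h1 h2 x hx
  let K' : CCx T := ⟨K, hK⟩
  let z : K' ⟶ K' := ObjectProperty.homMk (zr K)
  have h3 : (CCx.qis T).Q.map z = (CCx.qis T).Q.map (𝟙 K') := (ht _ _).elim _ _
  have h4 : (HF T X i j k).map z = (HF T X i j k).map (𝟙 K') := by
    rw [← Localization.Construction.fac (HF T X i j k) (inv_HF T X h1 h2)]
    exact congrArg (fun w => (Localization.Construction.lift (HF T X i j k)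
      (inv_HF T X h1 h2)).map w) h3
  have h5 : mkH K X i j k (zMap (zr K) X j k ⟨x, hx⟩) = mkH K X i j k ⟨x, hx⟩ :=
    ConcreteCategory.congr_hom h4 (mkH K X i j k ⟨x, hx⟩)
  rw [mkH_eq] at h5
  obtain ⟨y, hy⟩ := h5
  refine ⟨y, hy.trans ?_⟩
  change -(hA (zr K) X j x) + x = x
  rw [hA_zr, neg_zero, zero_add]

end

end Vale.Agent.P286.H96
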