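import Vale.Agent.P286.Gen.GpD

/-!
# The symplectic groups, the orthogonal groups and the spin groups
-/

namespace Vale.Agent.P286.H96

open Vale.Agent.P286.Gen Matrix

variable {N m : ℕ}

/-- The group of the matrices of determinant `1` which preserve the bilinear form `F`. -/
def FormG (F : Matrix (Fin N) (Fin N) ℂ) : Gps N :=
  Subgroup.closure {x | x.1.transpose * F * x.1 = F}

/-- The symplectic form on `ℂ^N`, `N` even, with `(e_i, e_{N-1-i}) = 1` for `i < N/2`. -/
def formS (N : ℕ) : Matrix (Fin N) (Fin N) ℂ :=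
  of fun i j => if j = i.rev then if i.val < N / 2 then 1 else -1 else 0

/-- An irreducible system of `m` hermitian gamma matrices: a representation of the Clifford algebra
of the quadratic form `∑ v_j²` on `ℂ^m`. -/
def IsGam (E : Fin m → Matrix (Fin N) (Fin N) ℂ) : Prop :=
  N ≠ 0 ∧ (∀ j, E j * E j = 1 ∧ (E j).conjTranspose = E j) ∧
    (∀ j k, j ≠ k → E j * E k = -(E k * E j)) ∧
    ∀ X, (∀ j, X * E j = E j * X) → ∃ c : ℂ, X = c • 1

/-- The group `Spin_m(ℂ)` in the spin representation: the group generated by the products of two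
unit vectors in the Clifford algebra. -/
def SpinG (E : Fin m → Matrix (Fin N) (Fin N) ℂ) : Gps N :=
  Subgroup.closure {x | ∃ v w : Fin m → ℂ, ∑ j, v j * v j = 1 ∧ ∑ j, w j * w j = 1 ∧
    x.1 = (∑ j, v j • E j) * ∑ j, w j • E j}

/-- The finite group `Z` is a central subgroup of `Γ`, and its exponent divides `m`. -/
def IsCentral (Γ Z : Gps N) (m : ℕ) : Prop :=
  m ≠ 0 ∧ Finite Z ∧ Z ≤ Γ ⊓ Subgroup.centralizer Γ ∧ ∀ ζ ∈ Z, ζ ^ m = 1

/-- The pairs of groups of the theorem.  `self`: a connected group with simple Lie algebra and itself,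
with any `h, r > 0`; for the types `A`, `D`, `E`, `F_4`, `G_2`, `B_2 = C_2` the root system is
self-dual, and `h`, `r` can be the dual Coxeter number and the lacing number.  `so`, `spin`:
`Sp_{2n}` and `SO_{2n+1}` or `Spin_{2n+1}`, with the dual Coxeter numbers `n + 1`, `2n - 1` and the
lacing number `2`. -/
inductive Pair : ∀ {N N' : ℕ}, Gps N → Gps N' → ℕ → ℕ → ℕ → Prop
  | self {N : ℕ} (Γ : Gps N) (h r : ℕ) : (Ideal.span (van Γ)).IsPrime →
      LieAlgebra.IsSimple ℂ (lieAlg Γ) → 0 < h → 0 < r → Pair Γ Γ h h r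
  | so (n : ℕ) : 2 ≤ n →
      Pair (FormG (formS (2 * n))) (FormG (N := 2 * n + 1) 1) (n + 1) (2 * n - 1) 2
  | spin (n : ℕ) {N : ℕ} (E : Fin (2 * n + 1) → Matrix (Fin N) (Fin N) ℂ) : 2 ≤ n → IsGam E →
      Pair (FormG (formS (2 * n))) (SpinG E) (n + 1) (2 * n - 1) 2
  | symm {N N' : ℕ} {Γ : Gps N} {Γ' : Gps N'} {h h' r : ℕ} : Pair Γ Γ' h h' r → Pair Γ' Γ h' h r

end Vale.Agent.P286.H96
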