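import Vale.Agent.P286.H987.Spin
import Vale.Agent.P286.H96.Grp

/-!
# The spin group is generated by the products of two unit vectors
-/

namespace Vale.Agent.P286.H96

open Matrix Vale.Agent.P286.Gen Vale.Agent.P286.H987

noncomputable section

section Ring

variable {R : Type*} [Ring R] [Algebra ℂ R]

/-- The transformation of Eichler. -/
theorem conj_vw' {v w y : R} {a b η : ℂ} (hv : v * v = 0) (hw : w * w = η • (1 : R))
    (hvw : v * w = -(w * v)) (hyv : y * v + v * y = (2 * a) • (1 : R))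
    (hyw : y * w + w * y = (2 * b) • (1 : R)) :
    (1 + v * w) * y * (1 - v * w) =
      y + (2 * b) • v - (2 * a) • w - (2 * a * η) • v := by
  have e1 : w * y = (2 * b) • (1 : R) - y * w := by rw [← hyw]; abel
  have e2 : v * y = (2 * a) • (1 : R) - y * v := by rw [← hyv]; abel
  have h1 : (v * w) * y - y * (v * w) = (2 * b) • v - (2 * a) • w := by
    calc (v * w) * y - y * (v * w) = v * (w * y) - y * v * w := by noncomm_ring
      _ = v * ((2 * b) • (1 : R) - y * w) - y * v * w := by rw [e1]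
      _ = (2 * b) • v - (v * y) * w - y * v * w := by
          rw [mul_sub, mul_smul_comm, mul_one, mul_assoc v y w]
      _ = (2 * b) • v - ((2 * a) • (1 : R) - y * v) * w - y * v * w := by rw [e2]
      _ = _ := by rw [sub_mul, smul_mul_assoc, one_mul]; abel
  have h2 : (v * w) * y * (v * w) = (2 * a * η) • v := by
    have hwv : w * v = -(v * w) := by rw [hvw, neg_neg]
    calc (v * w) * y * (v * w) = v * (w * y) * (v * w) := by noncomm_ring
      _ = v * ((2 * b) • (1 : R) - y * w) * (v * w) := by rw [e1]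
      _ = (2 * b) • ((v * v) * w) - (v * y) * (w * v) * w := by
          rw [mul_sub, mul_smul_comm, mul_one, sub_mul, smul_mul_assoc]
          noncomm_ring
      _ = (v * y) * v * (w * w) := by
          rw [hv, zero_mul, smul_zero, hwv]
          noncomm_ring
      _ = η • (((2 * a) • (1 : R) - y * v) * v) := by rw [e2, hw, mul_smul_comm, mul_one]
      _ = η • ((2 * a) • v - y * (v * v)) := by rw [sub_mul, smul_mul_assoc, one_mul, mul_assoc]
      _ = _ := by rw [hv, mul_zero, sub_zero, smul_smul, mul_comm]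
  have h3 : (1 + v * w) * y * (1 - v * w) =
      y + ((v * w) * y - y * (v * w)) - (v * w) * y * (v * w) := by
    noncomm_ring
  rw [h3, h1, h2]
  abel

end Ring

variable {m N : ℕ} (S : CSys m N)

/-- The element `∑ v_j E_j`. -/
def Vl : (Fin m → ℂ) →ₗ[ℂ] Mt N ℂ := ∑ j, (LinearMap.proj j).smulRight (S.E j)

theorem Vl_apply (v : Fin m → ℂ) : Vl S v = ∑ j, v j • S.E j := by
  simp [Vl, LinearMap.sum_apply]

theorem Vl_single (p : Fin m) : Vl S (Pi.single p 1) = S.E p := by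
  rw [Vl_apply, Finset.sum_eq_single p]
  · rw [Pi.single_eq_same, one_smul]
  · intro j _ hj
    rw [Pi.single_eq_of_ne hj, zero_smul]
  · intro h
    exact absurd (Finset.mem_univ p) h

theorem Vl_rel (v w : Fin m → ℂ) :
    Vl S v * Vl S w + Vl S w * Vl S v = (2 * (v ⬝ᵥ w)) • (1 : Mt N ℂ) := by
  rw [Vl_apply, Vl_apply, Finset.sum_mul_sum, Finset.sum_mul_sum, Finset.sum_comm (f := fun i j =>
    w i • S.E i * v j • S.E j), ← Finset.sum_add_distrib]
  have h : ∀ i : Fin m, ((∑ j, v i • S.E i * w j • S.E j) + ∑ j, w j • S.E j * v i • S.E i) =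
      (2 * (v i * w i)) • (1 : Mt N ℂ) := by
    intro i
    rw [← Finset.sum_add_distrib, Finset.sum_eq_single i]
    · rw [smul_mul_smul_comm, smul_mul_smul_comm, mul_comm (w i), ← smul_add, S.rel, if_pos rfl,
        smul_smul]
      ring_nf
    · intro j _ hj
      rw [smul_mul_smul_comm, smul_mul_smul_comm, mul_comm (w j), ← smul_add, S.rel,
        if_neg hj.symm, mul_zero, zero_smul, smul_zero]
    · intro h
      exact absurd (Finset.mem_univ i) h
  rw [Finset.sum_congr rfl (fun i _ => h i), ← Finset.sum_smul, dotProduct, Finset.mul_sum]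

theorem Vl_sq (v : Fin m → ℂ) : Vl S v * Vl S v = (v ⬝ᵥ v) • (1 : Mt N ℂ) := by
  have h := Vl_rel S v v
  have h2 : (2 : ℂ) • (Vl S v * Vl S v) = (2 : ℂ) • ((v ⬝ᵥ v) • (1 : Mt N ℂ)) := by
    rw [two_smul, h, smul_smul]
  exact smul_right_injective _ (two_ne_zero (α := ℂ)) h2

/-- The matrix belongs to the spin group. -/
def InG (M : Mt N ℂ) : Prop := ∃ g ∈ spin S, g.1 = M

variable {S}

theorem InG.one : InG S (1 : Mt N ℂ) := ⟨1, one_mem _, rfl⟩

theorem InG.mul {M M' : Mt N ℂ} (h : InG S M) (h' : InG S M') : InG S (M * M') := by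
  obtain ⟨g, hg, rfl⟩ := h
  obtain ⟨g', hg', rfl⟩ := h'
  exact ⟨g * g', mul_mem hg hg', rfl⟩

theorem InG.inv {M M' : Mt N ℂ} (h : InG S M) (h' : M * M' = 1) : InG S M' := by
  obtain ⟨g, hg, rfl⟩ := h
  refine ⟨g⁻¹, inv_mem hg, ?_⟩
  have h1 : (g⁻¹).1 * g.1 = 1 := congrArg Subtype.val (inv_mul_cancel g)
  calc (g⁻¹).1 = (g⁻¹).1 * (g.1 * M') := by rw [h', mul_one]
    _ = M' := by rw [← mul_assoc, h1, one_mul]

variable (S)

/-- The isotropic vector. -/
def ai (p q : Fin m) (c : ℂ) : Fin m → ℂ := Pi.single p 1 + c • Pi.single q 1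

theorem Vl_ai (p q : Fin m) (c : ℂ) : Vl S (ai p q c) = iv S p q c := by
  rw [ai, map_add, map_smul, Vl_single, Vl_single, iv]

theorem ai_dot (p q : Fin m) (c : ℂ) (y : Fin m → ℂ) : ai p q c ⬝ᵥ y = y p + c * y q := by
  rw [ai, add_dotProduct, smul_dotProduct, single_one_dotProduct, single_one_dotProduct,
    smul_eq_mul]

theorem dot_ai (p q : Fin m) (c : ℂ) (y : Fin m → ℂ) : y ⬝ᵥ ai p q c = y p + c * y q := by
  rw [dotProduct_comm, ai_dot]

theorem inG_X {p q : Fin m} (hpq : p ≠ q) {c : ℂ} (hc : c * c = -1) (y : Fin m → ℂ)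
    (hp : y p = 0) (hq : y q = 0) : InG S (1 + Vl S (ai p q c) * Vl S y) := by
  have h : ∀ s : Finset (Fin m), p ∉ s → q ∉ s →
      InG S (1 + iv S p q c * ∑ r ∈ s, y r • S.E r) := by
    intro s
    induction s using Finset.induction_on with
    | empty =>
      intro _ _
      rw [Finset.sum_empty, mul_zero, add_zero]
      exact InG.one
    | insert r s hr ih =>
      intro h1 h2
      rw [Finset.mem_insert, not_or] at h1 h2
      have h3 := ih h1.2 h2.2
      have h4 : InG S (1 + y r • nl S p q r c) :=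
        exists_gen S hpq h1.1 h2.1 hc (y r)
      have h5 := h4.mul h3
      have h6 : (1 + y r • nl S p q r c) * (1 + iv S p q c * ∑ r ∈ s, y r • S.E r) =
          1 + iv S p q c * ∑ r ∈ insert r s, y r • S.E r := by
        have h7 : nl S p q r c * (iv S p q c * ∑ r ∈ s, y r • S.E r) = 0 := by
          have h8 : nl S p q r c * iv S p q c = 0 := by
            unfold nl
            have h9 : S.E r * iv S p q c = -(iv S p q c * S.E r) := by
              rw [iv_ac S h1.1 h2.1, neg_neg]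
            rw [mul_assoc, h9, mul_neg, ← mul_assoc, iv_sq S hpq hc, zero_mul, neg_zero]
          rw [← mul_assoc, h8, zero_mul]
        rw [Finset.sum_insert hr, add_mul, one_mul, mul_add, mul_add, mul_one, smul_mul_assoc, h7,
          smul_zero, add_zero, mul_smul_comm]
        unfold nl
        abel
      rwa [h6] at h5
  have h1 := h (Finset.univ \ {p, q}) (by simp) (by simp)
  have h2 : ∑ r ∈ Finset.univ \ {p, q}, y r • S.E r = Vl S y := by
    rw [Vl_apply]
    apply Finset.sum_subset (Finset.subset_univ _)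
    intro j _ hj
    have h3 : j = p ∨ j = q := by
      by_contra h4
      rw [not_or] at h4
      apply hj
      simp [h4.1, h4.2]
    rcases h3 with rfl | rfl
    · rw [hp, zero_smul]
    · rw [hq, zero_smul]
  rwa [h2, ← Vl_ai] at h1

theorem X_inv {a y : Fin m → ℂ} (ha : a ⬝ᵥ a = 0) (hy : a ⬝ᵥ y = 0) :
    (1 + Vl S a * Vl S y) * (1 - Vl S a * Vl S y) = 1 := by
  have h1 : Vl S a * Vl S a = 0 := by rw [Vl_sq, ha, zero_smul]
  have h2 : Vl S a * Vl S y = -(Vl S y * Vl S a) := by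
    rw [eq_neg_iff_add_eq_zero, Vl_rel, hy, mul_zero, zero_smul]
  have h3 := vw_sq h1 h2
  calc (1 + Vl S a * Vl S y) * (1 - Vl S a * Vl S y) =
      1 - (Vl S a * Vl S y) * (Vl S a * Vl S y) := by noncomm_ring
    _ = 1 := by rw [h3, sub_zero]

theorem X_conj {a y : Fin m → ℂ} (ha : a ⬝ᵥ a = 0) (hy : a ⬝ᵥ y = 0) (z : Fin m → ℂ) :
    (1 + Vl S a * Vl S y) * Vl S z * (1 - Vl S a * Vl S y) =
      Vl S (z + (2 * (z ⬝ᵥ y)) • a - (2 * (z ⬝ᵥ a)) • y - (2 * (z ⬝ᵥ a) * (y ⬝ᵥ y)) • a) := by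
  have h1 : Vl S a * Vl S a = 0 := by rw [Vl_sq, ha, zero_smul]
  have h2 : Vl S a * Vl S y = -(Vl S y * Vl S a) := by
    rw [eq_neg_iff_add_eq_zero, Vl_rel, hy, mul_zero, zero_smul]
  rw [conj_vw' h1 (Vl_sq S y) h2 (Vl_rel S z a) (Vl_rel S z y)]
  simp only [map_add, map_sub, map_smul]

/-- The reflection in the vector `e_p`. -/
theorem refl_E (p : Fin m) (z : Fin m → ℂ) :
    S.E p * Vl S z * S.E p = (2 * z p) • S.E p - Vl S z := by
  have h := Vl_rel S (Pi.single p 1) z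
  rw [Vl_single, single_one_dotProduct] at h
  have h1 : S.E p * Vl S z = (2 * z p) • (1 : Mt N ℂ) - Vl S z * S.E p := by
    rw [← h]
    abel
  rw [h1, sub_mul, smul_mul_assoc, one_mul, mul_assoc, S.sq, mul_one]

theorem refl_ai {p q : Fin m} (hpq : p ≠ q) (c : ℂ) :
    S.E p * Vl S (ai p q c) * S.E p = Vl S (ai p q (-c)) := by
  have h : ai p q c p = 1 := by
    rw [ai, Pi.add_apply, Pi.single_eq_same, Pi.smul_apply, Pi.single_eq_of_ne hpq, smul_zero,
      add_zero]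
  rw [refl_E, h, mul_one, Vl_ai, Vl_ai, iv, iv, two_smul, neg_smul]
  abel

theorem refl_of_zero {p : Fin m} {z : Fin m → ℂ} (h : z p = 0) :
    S.E p * Vl S z * S.E p = -Vl S z := by
  rw [refl_E, h, mul_zero, zero_smul, zero_sub]

theorem refl_X {p q : Fin m} (hpq : p ≠ q) (c : ℂ) {y : Fin m → ℂ} (hy : y p = 0) :
    S.E p * (1 + Vl S (ai p q c) * Vl S y) * S.E p = 1 + Vl S (ai p q (-c)) * Vl S (-y) := by
  have h1 : S.E p * (1 + Vl S (ai p q c) * Vl S y) * S.E p =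
      1 + (S.E p * Vl S (ai p q c) * S.E p) * (S.E p * Vl S y * S.E p) := by
    have h2 : (S.E p * Vl S (ai p q c) * S.E p) * (S.E p * Vl S y * S.E p) =
        S.E p * Vl S (ai p q c) * (S.E p * S.E p) * Vl S y * S.E p := by noncomm_ring
    rw [h2, S.sq, mul_one, mul_add, mul_one, add_mul, S.sq]
    noncomm_ring
  rw [h1, refl_ai S hpq, refl_of_zero S hy, map_neg]

theorem X_inv' {a y : Fin m → ℂ} (ha : a ⬝ᵥ a = 0) (hy : a ⬝ᵥ y = 0) :
    (1 - Vl S a * Vl S y) * (1 + Vl S a * Vl S y) = 1 := by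
  have h := X_inv S ha (show a ⬝ᵥ (-y) = 0 by rw [dotProduct_neg, hy, neg_zero])
  rwa [map_neg, mul_neg, sub_neg_eq_add, ← sub_eq_add_neg] at h

theorem ai_ai {p q : Fin m} (hpq : p ≠ q) (c d : ℂ) : ai p q c ⬝ᵥ ai p q d = 1 + c * d := by
  rw [ai_dot]
  simp [ai, Pi.single_eq_of_ne hpq, Pi.single_eq_of_ne hpq.symm]

theorem ai_apply_of_ne {p q r : Fin m} (hp : p ≠ r) (hq : q ≠ r) (c : ℂ) : ai p q c r = 0 := by
  simp [ai, Pi.single_eq_of_ne hp.symm, Pi.single_eq_of_ne hq.symm]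

theorem ai_left {p q : Fin m} (hpq : p ≠ q) (c : ℂ) : ai p q c p = 1 := by
  simp [ai, Pi.single_eq_of_ne hpq]

theorem ai_right {p q : Fin m} (hpq : p ≠ q) (c : ℂ) : ai p q c q = c := by
  simp [ai, Pi.single_eq_of_ne hpq.symm]

theorem inG_VE {p q r : Fin m} (hpq : p ≠ q) (hp : p ≠ r) (hq : q ≠ r) {c : ℂ} (hc : c * c = -1)
    (v : Fin m → ℂ) (hv : v ⬝ᵥ v = 1) (hα : v p - c * v q ≠ 0) : InG S (Vl S v * S.E p) := by
  obtain ⟨α, hα'⟩ : ∃ α : ℂ, α = (v p - c * v q) / 2 := ⟨_, rfl⟩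
  obtain ⟨β, hβ'⟩ : ∃ β : ℂ, β = (v p + c * v q) / 2 := ⟨_, rfl⟩
  have hα0 : α ≠ 0 := by
    rw [hα']
    exact div_ne_zero hα two_ne_zero
  obtain ⟨κ, hκ⟩ := IsAlgClosed.exists_eq_mul_self (1 - 2 * α)
  have hc' : (-c) * (-c) = -1 := by rw [neg_mul_neg, hc]
  obtain ⟨w, hw⟩ : ∃ w, w = v - α • ai p q c - β • ai p q (-c) := ⟨_, rfl⟩
  have hva : v ⬝ᵥ ai p q c = 2 * β := by rw [dot_ai, hβ']; ring
  have hva' : v ⬝ᵥ ai p q (-c) = 2 * α := by rw [dot_ai, hα']; ring
  have hvp : v p = α + β := by rw [hα', hβ']; ring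
  have hvq : v q = c * (α - β) := by
    rw [hα', hβ']
    linear_combination (v q) * hc
  have hwp : w p = 0 := by
    rw [hw]
    simp only [Pi.sub_apply, Pi.smul_apply, smul_eq_mul, ai_left hpq]
    rw [hvp]
    ring
  have hwq : w q = 0 := by
    rw [hw]
    simp only [Pi.sub_apply, Pi.smul_apply, smul_eq_mul, ai_right hpq]
    rw [hvq]
    ring
  have hwr : w r = v r := by
    rw [hw]
    simp only [Pi.sub_apply, Pi.smul_apply, smul_eq_mul, ai_apply_of_ne hp hq]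
    ring
  have hvw : v ⬝ᵥ w = 1 - 4 * α * β := by
    rw [hw, dotProduct_sub, dotProduct_sub, dotProduct_smul, dotProduct_smul, hv, hva, hva',
      smul_eq_mul, smul_eq_mul]
    ring
  have haw : ai p q c ⬝ᵥ w = 0 := by rw [ai_dot, hwp, hwq, mul_zero, add_zero]
  have haw' : ai p q (-c) ⬝ᵥ w = 0 := by rw [ai_dot, hwp, hwq, mul_zero, add_zero]
  have hww : w ⬝ᵥ w = 1 - 4 * α * β := by
    conv_lhs => lhs; rw [hw]
    rw [sub_dotProduct, sub_dotProduct, smul_dotProduct, smul_dotProduct, haw, haw', hvw]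
    simp
  obtain ⟨e, he⟩ : ∃ e : Fin m → ℂ, e = Pi.single r 1 := ⟨_, rfl⟩
  have hep : e p = 0 := by rw [he, Pi.single_eq_of_ne hp]
  have heq : e q = 0 := by rw [he, Pi.single_eq_of_ne hq]
  have her : e r = 1 := by rw [he, Pi.single_eq_same]
  have hxe : ∀ x : Fin m → ℂ, x ⬝ᵥ e = x r := by
    intro x
    rw [he, dotProduct_single_one]
  obtain ⟨y, hy⟩ : ∃ y : Fin m → ℂ, y = (1 / (4 * α)) • (w - κ • e) := ⟨_, rfl⟩
  have hyp : y p = 0 := by
    rw [hy]
    simp [hwp, hep]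
  have hyq : y q = 0 := by
    rw [hy]
    simp [hwq, heq]
  have hvy : v ⬝ᵥ y = 1 / (4 * α) * ((1 - 4 * α * β) - κ * v r) := by
    rw [hy, dotProduct_smul, dotProduct_sub, dotProduct_smul, hvw, hxe, smul_eq_mul, smul_eq_mul]
  have hyy : y ⬝ᵥ y = 1 / (4 * α) * (1 / (4 * α) * ((1 - 4 * α * β) - 2 * (κ * v r) + κ * κ)) := by
    rw [hy, dotProduct_smul, smul_dotProduct, dotProduct_sub, sub_dotProduct, sub_dotProduct,
      dotProduct_smul, dotProduct_smul, smul_dotProduct, smul_dotProduct, hww, hxe, hxe,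
      dotProduct_comm e w, hxe, her, hwr]
    simp only [smul_eq_mul]
    ring
  have h4y : (4 * α) • y = w - κ • e := by
    have h4 : (4 : ℂ) * α ≠ 0 := mul_ne_zero (by norm_num) hα0
    rw [hy, smul_smul, mul_one_div_cancel h4, one_smul]
  have hcoef : 2 * (v ⬝ᵥ y) - 4 * α * (y ⬝ᵥ y) = 1 / 2 - β := by
    rw [hvy, hyy, ← hκ]
    field_simp
    ring
  have hz1 : v + (2 * (v ⬝ᵥ y)) • ai p q (-c) - (2 * (v ⬝ᵥ ai p q (-c))) • y -
      (2 * (v ⬝ᵥ ai p q (-c)) * (y ⬝ᵥ y)) • ai p q (-c) =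
      α • ai p q c + (1 / 2 : ℂ) • ai p q (-c) + κ • e := by
    have h1 : v + (2 * (v ⬝ᵥ y)) • ai p q (-c) - (2 * (v ⬝ᵥ ai p q (-c))) • y -
        (2 * (v ⬝ᵥ ai p q (-c)) * (y ⬝ᵥ y)) • ai p q (-c) =
        v + (2 * (v ⬝ᵥ y) - 4 * α * (y ⬝ᵥ y)) • ai p q (-c) - (4 * α) • y := by
      rw [hva']
      module
    rw [h1, hcoef, h4y, hw]
    module
  have haa : ai p q c ⬝ᵥ ai p q c = 0 := by rw [ai_ai hpq, hc, add_neg_cancel]
  have haa' : ai p q (-c) ⬝ᵥ ai p q (-c) = 0 := by rw [ai_ai hpq, hc', add_neg_cancel]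
  have hay' : ai p q (-c) ⬝ᵥ y = 0 := by rw [ai_dot, hyp, hyq, mul_zero, add_zero]
  obtain ⟨z, hz⟩ : ∃ z : Fin m → ℂ, z = α • ai p q c + (1 / 2 : ℂ) • ai p q (-c) + κ • e :=
    ⟨_, rfl⟩
  obtain ⟨y', hy'⟩ : ∃ y' : Fin m → ℂ, y' = (κ / 2) • e := ⟨_, rfl⟩
  have hyp' : y' p = 0 := by
    rw [hy']
    simp [hep]
  have hyq' : y' q = 0 := by
    rw [hy']
    simp [heq]
  have hea : e ⬝ᵥ ai p q c = 0 := by rw [dot_ai, hep, heq, mul_zero, add_zero]
  have hza : z ⬝ᵥ ai p q c = 1 := by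
    rw [hz, add_dotProduct, add_dotProduct, smul_dotProduct, smul_dotProduct, smul_dotProduct,
      haa, hea, ai_ai hpq]
    simp only [smul_eq_mul]
    linear_combination (-1 / 2 : ℂ) * hc
  have hzr : z r = κ := by
    rw [hz]
    simp only [Pi.add_apply, Pi.smul_apply, smul_eq_mul, ai_apply_of_ne hp hq, her]
    ring
  have hzy : z ⬝ᵥ y' = κ / 2 * κ := by rw [hy', dotProduct_smul, hxe, hzr, smul_eq_mul]
  have hyy' : y' ⬝ᵥ y' = κ / 2 * (κ / 2) := by
    rw [hy', dotProduct_smul, smul_dotProduct, hxe, her, smul_eq_mul, smul_eq_mul, mul_one]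
  have hay : ai p q c ⬝ᵥ y' = 0 := by rw [ai_dot, hyp', hyq', mul_zero, add_zero]
  have hz2 : z + (2 * (z ⬝ᵥ y')) • ai p q c - (2 * (z ⬝ᵥ ai p q c)) • y' -
      (2 * (z ⬝ᵥ ai p q c) * (y' ⬝ᵥ y')) • ai p q c = Pi.single p 1 := by
    have h1 : Pi.single p (1 : ℂ) = (1 / 2 : ℂ) • ai p q c + (1 / 2 : ℂ) • ai p q (-c) := by
      rw [ai, ai]
      module
    rw [hza, hzy, hyy', h1, hz, hy']
    have h2 : α • ai p q c = (1 / 2 : ℂ) • ai p q c - (κ * κ / 2) • ai p q c := by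
      rw [← hκ]
      module
    rw [h2]
    module
  have k1 := X_conj S haa' hay' v
  rw [hz1, ← hz] at k1
  have k2 := X_conj S haa hay z
  rw [hz2, Vl_single] at k2
  have i1 := X_inv' S haa' hay'
  have i2 := X_inv' S haa hay
  obtain ⟨g, hg⟩ : ∃ g, g = 1 + Vl S (ai p q (-c)) * Vl S y := ⟨_, rfl⟩
  obtain ⟨g', hg'⟩ : ∃ g', g' = 1 + Vl S (ai p q c) * Vl S y' := ⟨_, rfl⟩
  obtain ⟨f, hf⟩ : ∃ f, f = 1 - Vl S (ai p q (-c)) * Vl S y := ⟨_, rfl⟩
  obtain ⟨f', hf'⟩ : ∃ f', f' = 1 - Vl S (ai p q c) * Vl S y' := ⟨_, rfl⟩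
  have r1 := refl_X S hpq (-c) hyp
  have r2 := refl_X S hpq c hyp'
  rw [neg_neg] at r1
  rw [← hg] at k1 i1 r1
  rw [← hg'] at k2 i2 r2
  rw [← hf] at k1 i1
  rw [← hf'] at k2 i2
  have l1 : InG S f := by
    have h := inG_X S hpq hc' (-y) (by simp [hyp]) (by simp [hyq])
    rwa [map_neg, mul_neg, ← sub_eq_add_neg, ← hf] at h
  have l2 : InG S f' := by
    have h := inG_X S hpq hc (-y') (by simp [hyp']) (by simp [hyq'])
    rwa [map_neg, mul_neg, ← sub_eq_add_neg, ← hf'] at h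
  have l3 : InG S (S.E p * g * S.E p) := by
    rw [r1]
    exact inG_X S hpq hc (-y) (by simp [hyp]) (by simp [hyq])
  have l4 : InG S (S.E p * g' * S.E p) := by
    rw [r2]
    exact inG_X S hpq hc' (-y') (by simp [hyp']) (by simp [hyq'])
  have hsq := S.sq p
  have hfin : Vl S v * S.E p = f * f' * (S.E p * g' * S.E p) * (S.E p * g * S.E p) := by
    have h1 : f' * g' = 1 := i2
    have h2 : f * g = 1 := i1
    have h3 : g * f = 1 := mul_eq_one_comm.1 h2
    have h4 : g' * f' = 1 := mul_eq_one_comm.1 h1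
    calc Vl S v * S.E p = (f * g) * Vl S v * (f * g) * S.E p := by rw [h2, one_mul, mul_one]
      _ = f * (g * Vl S v * f) * g * S.E p := by noncomm_ring
      _ = f * ((f' * g') * Vl S z * (f' * g')) * g * S.E p := by rw [k1, h1, one_mul, mul_one]
      _ = f * f' * (g' * Vl S z * f') * g' * g * S.E p := by noncomm_ring
      _ = f * f' * S.E p * g' * (S.E p * S.E p) * g * S.E p := by rw [k2, hsq, mul_one]
      _ = _ := by noncomm_ring
  rw [hfin]
  exact ((l1.mul l2).mul l4).mul l3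

theorem exists_ne₂ (hm : 3 ≤ m) (p q : Fin m) : ∃ r : Fin m, p ≠ r ∧ q ≠ r := by
  by_contra h
  push Not at h
  have h1 : (Finset.univ : Finset (Fin m)) ⊆ {p, q} := by
    intro r _
    by_cases hr : p = r
    · simp [hr]
    · simp [h r hr]
  have h2 := Finset.card_le_card h1
  rw [Finset.card_univ, Fintype.card_fin] at h2
  have h3 := Finset.card_le_two (a := p) (b := q)
  omega

theorem exists_inG_VE (hm : 3 ≤ m) (v : Fin m → ℂ) (hv : v ⬝ᵥ v = 1) :
    ∃ p, InG S (Vl S v * S.E p) := by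
  have h1 : ∃ p, v p ≠ 0 := by
    by_contra h
    push Not at h
    have h2 : v = 0 := funext h
    rw [h2, zero_dotProduct] at hv
    exact zero_ne_one hv
  obtain ⟨p, hp⟩ := h1
  obtain ⟨q, hq, _⟩ := exists_ne₂ hm p p
  obtain ⟨r, hpr, hqr⟩ := exists_ne₂ hm p q
  refine ⟨p, ?_⟩
  by_cases h2 : v p - Complex.I * v q = 0
  · refine inG_VE S hq hpr hqr (c := -Complex.I) (by rw [neg_mul_neg, Complex.I_mul_I]) v hv ?_
    intro h3
    apply hp
    linear_combination (1 / 2 : ℂ) * h2 + (1 / 2 : ℂ) * h3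
  · exact inG_VE S hq hpr hqr (c := Complex.I) Complex.I_mul_I v hv h2

theorem inG_EE (hm : 3 ≤ m) (p q : Fin m) : InG S (S.E p * S.E q) := by
  by_cases h : p = q
  · subst h
    rw [S.sq]
    exact InG.one
  · obtain ⟨r, hpr, hqr⟩ := exists_ne₂ hm p q
    have h1 := inG_VE S (fun h' => h h'.symm) hqr hpr Complex.I_mul_I (Pi.single p 1)
      (by rw [single_one_dotProduct, Pi.single_eq_same])
      (by rw [Pi.single_eq_of_ne (fun h' => h h'.symm), Pi.single_eq_same, zero_sub, mul_one]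
          exact neg_ne_zero.2 Complex.I_ne_zero)
    rwa [Vl_single] at h1

theorem inG_VV (hm : 3 ≤ m) (v w : Fin m → ℂ) (hv : v ⬝ᵥ v = 1) (hw : w ⬝ᵥ w = 1) :
    InG S (Vl S v * Vl S w) := by
  obtain ⟨p, hp⟩ := exists_inG_VE S hm v hv
  obtain ⟨q, hq⟩ := exists_inG_VE S hm w hw
  have h1 : (Vl S w * S.E q) * (S.E q * Vl S w) = 1 := by
    have h2 : (Vl S w * S.E q) * (S.E q * Vl S w) = Vl S w * (S.E q * S.E q) * Vl S w := by
      noncomm_ring
    rw [h2, S.sq, mul_one, Vl_sq, hw, one_smul]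
  have h3 := (hp.mul (inG_EE S hm p q)).mul (hq.inv h1)
  have h4 : Vl S v * S.E p * (S.E p * S.E q) * (S.E q * Vl S w) = Vl S v * Vl S w := by
    have h5 : Vl S v * S.E p * (S.E p * S.E q) * (S.E q * Vl S w) =
        Vl S v * (S.E p * S.E p) * (S.E q * S.E q) * Vl S w := by noncomm_ring
    rw [h5, S.sq, S.sq, mul_one, mul_one]
  rwa [h4] at h3

/-- The group generated by the products of two unit vectors is the group generated by the root
subgroups. -/
theorem spinG_eq (hm : 3 ≤ m) : SpinG S.E = spin S := by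
  apply le_antisymm
  · rw [SpinG, Subgroup.closure_le]
    rintro x ⟨v, w, hv, hw, hx⟩
    obtain ⟨g, hg, hgx⟩ := inG_VV S hm v w hv hw
    rw [Vl_apply, Vl_apply] at hgx
    have h1 : x = g := Subtype.ext (hx.trans hgx.symm)
    rw [h1]
    exact hg
  · rw [spin, Subgroup.closure_le]
    rintro x ⟨p, q, r, c, s, hpq, hp, hq, hc, hx⟩
    have her : (Pi.single r 1 : Fin m → ℂ) ⬝ᵥ Pi.single r 1 = 1 := by
      rw [single_one_dotProduct, Pi.single_eq_same]
    refine Subgroup.subset_closure ⟨Pi.single r 1, Pi.single r 1 - s • ai p q c, her, ?_, ?_⟩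
    · change (Pi.single r 1 - s • ai p q c) ⬝ᵥ (Pi.single r 1 - s • ai p q c) = 1
      rw [sub_dotProduct, dotProduct_sub, dotProduct_sub, dotProduct_smul, smul_dotProduct,
        smul_dotProduct, dotProduct_smul, her, single_one_dotProduct, dotProduct_single_one,
        ai_apply_of_ne hp hq, ai_ai hpq, hc]
      simp
    · rw [hx, ← Vl_apply, ← Vl_apply, Vl_single, map_sub, map_smul, Vl_single, Vl_ai, mul_sub,
        S.sq, mul_smul_comm, nl]
      rw [iv_ac S hp hq, smul_neg, ← sub_eq_add_neg]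

end

end Vale.Agent.P286.H96
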