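import Vale.Agent.P286.H295.SoG
import Vale.Agent.P286.H295.SpL
import Vale.Agent.P286.H987.Gam
import Vale.Agent.P286.H987.KillS
import Vale.Agent.P286.H96.Bridge
import Vale.Agent.P286.H96.Nz
import Vale.Agent.P286.H96.SpinU

/-!
# The final assembly
-/

namespace Vale.Agent.P286.H96

open Matrix Vale.Agent.P286.St Vale.Agent.P286.Gen Vale.Agent.P286.H987 Vale.Agent.P286.H295
  Vale.Agent.P286.Gen.H96

noncomputable section

section Groups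

variable {N m : ℕ}

theorem formG_eq {H : Gps N} {F : Mt N ℂ} (h : IsForm H F) : FormG F = H := by
  have h1 : {x : SpecialLinearGroup (Fin N) ℂ | x.1.transpose * F * x.1 = F} =
      (H : Set (SpecialLinearGroup (Fin N) ℂ)) := by
    ext x
    exact (h x).symm
  rw [FormG, h1, Subgroup.closure_eq]

theorem formG_S (N : ℕ) : FormG (formS N) = GSp N := formG_eq (isForm_GSp N)

theorem formG_one (N : ℕ) : FormG (1 : Mt N ℂ) = GSo N := formG_eq (isForm_GSo N)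

/-- The system of gamma matrices. -/
def csys {E : Fin m → Mt N ℂ} (h : IsGam E) : CSys m N where
  E := E
  sq j := (h.2.1 j).1
  ac := h.2.2.1
  herm j := (h.2.1 j).2
  irr := h.2.2.2

theorem isGam_of (S : CSys m N) [NeZero N] : IsGam S.E :=
  ⟨NeZero.ne N, fun j => ⟨S.sq j, S.herm j⟩, S.ac, S.irr⟩

theorem exists_isGam (n : ℕ) :
    ∃ (N : ℕ) (E : Fin (2 * n + 1) → Matrix (Fin N) (Fin N) ℂ), IsGam E :=
  ⟨_, _, isGam_of (gam n)⟩

end Groups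

/-- The properties of the groups which are used. -/
structure Good {N : ℕ} (Γ : Gps N) (h : ℕ) : Prop where
  pr : (vanI Γ).IsPrime
  kd : KilDet Γ
  ps : 0 < h

/-- The equivalences of the categories of the classifying stacks. -/
structure Inp : Prop where
  so : ∀ n, 2 ≤ n → H353.DGE (BGT (GSp (2 * n))) (BGT (GSo (2 * n + 1)))
  spin : ∀ (n N : ℕ) (S : CSys (2 * n + 1) N), 2 ≤ n → N ≠ 0 →
    H353.DGE (BGT (GSp (2 * n))) (BGT (spin S))

theorem good_sp {n : ℕ} (hn : 2 ≤ n) : Good (GSp (2 * n)) (n + 1) :=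
  ⟨prime_GSp (even_two_mul n), kilDet_GSp (even_two_mul n) (by omega), by omega⟩

theorem good_so {n : ℕ} (hn : 2 ≤ n) : Good (GSo (2 * n + 1)) (2 * n - 1) :=
  ⟨prime_GSo ⟨n, rfl⟩, kilDet_GSo (by omega), by omega⟩

theorem good_spin {n N : ℕ} (hn : 2 ≤ n) (h0 : N ≠ 0) (S : CSys (2 * n + 1) N) :
    Good (spin S) (2 * n - 1) := by
  have : NeZero N := ⟨h0⟩
  exact ⟨prime_spin S, kilDet_spin S (by omega), by omega⟩

theorem pair_data (I : Inp) {N N' : ℕ} {Γ : Gps N} {Γ' : Gps N'} {h h' r : ℕ}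
    (H : Pair Γ Γ' h h' r) : Good Γ h ∧ Good Γ' h' ∧ 0 < r ∧ DGEq (BgST Γ) (BgST Γ') := by
  induction H with
  | self Γ h r hP hS hh hr =>
    rw [span_van] at hP
    have hg : Good Γ h := ⟨hP, kilDet_of_isSimple, hh⟩
    exact ⟨hg, hg, hr, Relation.EqvGen.refl _⟩
  | so n hn =>
    rw [formG_S, formG_one, BgST_eq, BgST_eq]
    exact ⟨good_sp hn, good_so hn, two_pos, dgEq_of_dge (I.so n hn)⟩
  | spin n E hn hE =>
    have h1 : SpinG E = spin (csys hE) := spinG_eq (csys hE) (by omega)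
    rw [formG_S, h1, BgST_eq, BgST_eq]
    exact ⟨good_sp hn, good_spin hn hE.1 _, two_pos, dgEq_of_dge (I.spin n _ _ hn hE.1)⟩
  | symm H ih => exact ⟨ih.2.1, ih.1, ih.2.2.1, ih.2.2.2.symm _ _⟩

theorem dgEq_BG {N : ℕ} {Γ Z : Gps N} {m h : ℕ} (hg : Good Γ h) (hZ : IsCentral Γ Z m) {c : ℂ}
    (hc : ∀ q : ℚ, c ≠ (q : ℂ)) : DGEq (DBun Γ Z m h c) (BgST Γ) := by
  have := hZ.2.1
  have : NeZero m := ⟨hZ.1⟩
  rw [BgST_eq, DBun, BunST_eq]
  exact dgEq_of_dge (H353.dge_of_dgEquivalent (Gen.main hg.pr hg.kd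
    (fun ζ hζ => ⟨(hZ.2.2.1 hζ).1, fun γ hγ =>
      (Subgroup.mem_centralizer_iff.1 (hZ.2.2.1 hζ).2 γ hγ).symm⟩) (Gen.not_resonant hg.ps hc)))

/-- The result. -/
theorem result (I : Inp) :
    (∀ n : ℕ, ∃ (N : ℕ) (E : Fin (2 * n + 1) → Matrix (Fin N) (Fin N) ℂ), IsGam E) ∧
    ∀ (N N' : ℕ) (Γ : Gps N) (Γ' : Gps N') (h h' r : ℕ), Pair Γ Γ' h h' r →
    ∀ (Z : Gps N) (Z' : Gps N') (m m' : ℕ), IsCentral Γ Z m → IsCentral Γ' Z' m' →
    ∀ c : ℂ, (∀ q : ℚ, c ≠ (q : ℂ)) →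
    DGEq (DBun Γ Z m h c) (DBun Γ' Z' m' h' (-1 / (r * c))) ∧
    DGEq (DBun Γ Z m h c) (BgST Γ) ∧ IsNz (DBun Γ Z m h c) := by
  refine ⟨exists_isGam, ?_⟩
  intro N N' Γ Γ' h h' r H Z Z' m m' hZ hZ' c hc
  obtain ⟨h1, h2, hr, h3⟩ := pair_data I H
  have h4 := dgEq_BG h1 hZ hc
  have h5 := dgEq_BG h2 hZ' (Gen.irrational_inv hr hc)
  have : NeZero m := ⟨hZ.1⟩
  exact ⟨(h4.trans _ _ _ h3).trans _ _ _ (h5.symm _ _), h4, isNz_of (nonzero_Bun Γ Z m _)⟩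

end

end Vale.Agent.P286.H96
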