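import Vale.Agent.P286.H621.Asm
import Vale.Agent.P286.H96.Fin

/-!
# The two inputs of the final assembly
-/

namespace Vale.Agent.P286.H96

open Vale.Agent.P286.Gen Vale.Agent.P286.H987 Vale.Agent.P286.H295

theorem inp_of_rst (h : H621.Rst) : Inp where
  so n _ := Relation.EqvGen.rel _ _ (H621.dgs_sp_so h n)
  spin n N S hn hN := by
    have : NeZero N := ⟨hN⟩
    exact Relation.EqvGen.rel _ _ (H621.dgs_sp_spin h S (by omega))

end Vale.Agent.P286.H96
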