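import Vale.Agent.P286.H103.ZM
import Vale.Agent.P286.H867.ZLf
import Vale.Agent.P286.H96.Wire

/-!
# The inputs of the final assembly
-/

namespace Vale.Agent.P286.H96

theorem rst : H621.Rst := fun R n hE0 => ⟨H103.zM_R R n hE0, H867.zL_R R n hE0⟩

theorem inp : Inp := inp_of_rst rst

end Vale.Agent.P286.H96
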